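import Vale.Agent.P017.R2.H222.AsmB

/-!
# P017 (M7e, helper222): final assembly
-/

open Finset

namespace Vale.Agent.P017.R2.H222

open Vale.Agent.P017.R2.H985

open Classical

/-- the tuples of one box -/
noncomputable def Tup {s : ℕ} (a : Fin s → ℕ) (e r' m : ℕ) : Finset ((Fin s → ℕ) × ℕ) :=
  ((Fintype.piFinset fun i => Pr (2 ^ a i) 1) ×ˢ Pr (2 ^ e) r').filter
    (fun q => Good m ((∑ i, sym m (q.1 i)) + sym m q.2) (fun i => sym m (q.1 i)))

lemma mem_Pr {x r p : ℕ} : p ∈ Pr (2 ^ x) r ↔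
    p.Prime ∧ 2 ^ x < p ∧ p ≤ 2 ^ (x + 1) ∧ p % 60 = r := by
  rw [Pr, mem_filter, mem_Ioc, pow_succ']
  tauto

variable {b s L k : ℕ} {a : Fin s → ℕ} {e r' m : ℕ}

lemma mem_Tup {q : (Fin s → ℕ) × ℕ} (hq : q ∈ Tup a e r' m) : InBox a e r' q.1 q.2 ∧
    Good m ((∑ i, sym m (q.1 i)) + sym m q.2) (fun i => sym m (q.1 i)) := by
  rw [Tup, mem_filter, mem_product, Fintype.mem_piFinset] at hq
  exact ⟨⟨fun i => mem_Pr.1 (hq.1.1 i), mem_Pr.1 hq.1.2⟩, hq.2⟩

lemma log_le {x p : ℕ} (hp : p.Prime) (h : p ≤ 2 ^ x) (hx : x ≤ L) : Real.log p ≤ L := by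
  have h1 : (p : ℝ) ≤ 2 ^ x := by exact_mod_cast h
  have h2 := Real.log_le_log (by exact_mod_cast hp.pos) h1
  rw [Real.log_pow] at h2
  have h3 : Real.log 2 ≤ 1 := by
    have := Real.log_two_lt_d9
    linarith
  calc Real.log p ≤ x * Real.log 2 := h2
    _ ≤ x * 1 := by gcongr
    _ ≤ L := by rw [mul_one]; exact_mod_cast hx

/-- the number of tuples of one box -/
lemma tup_card (hB : Box b s L k a e)
    (h : frac s m * ((∏ i, ((2 ^ a i : ℕ) : ℝ)) * ((2 ^ e : ℕ) : ℝ)) / (4 ^ s * 40 ^ (s + 1)) ≤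
      ∑ p ∈ Fintype.piFinset (fun i => Pr (2 ^ a i) 1),
        ∑ p' ∈ (Pr (2 ^ e) r').filter (fun p' =>
          Good m ((∑ i, sym m (p i)) + sym m p') (fun i => sym m (p i))),
          (∏ i, Real.log (p i)) * Real.log p') :
    frac s m * ((∏ i, ((2 ^ a i : ℕ) : ℝ)) * ((2 ^ e : ℕ) : ℝ)) / (4 ^ s * 40 ^ (s + 1)) ≤
      (L : ℝ) ^ (s + 1) * (Tup a e r' m).card := by
  refine h.trans ?_
  have h1 : ∑ p ∈ Fintype.piFinset (fun i => Pr (2 ^ a i) 1),
        ∑ p' ∈ (Pr (2 ^ e) r').filter (fun p' =>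
          Good m ((∑ i, sym m (p i)) + sym m p') (fun i => sym m (p i))),
          (∏ i, Real.log (p i)) * Real.log p' =
      ∑ q ∈ Tup a e r' m, (∏ i, Real.log (q.1 i)) * Real.log q.2 := by
    rw [Tup, Finset.sum_filter, Finset.sum_product]
    refine Finset.sum_congr rfl fun p _ => ?_
    rw [Finset.sum_filter]
  rw [h1]
  calc _ ≤ ∑ q ∈ Tup a e r' m, (L : ℝ) ^ (s + 1) := by
        refine Finset.sum_le_sum fun q hq => ?_
        obtain ⟨hI, -⟩ := mem_Tup hq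
        rw [pow_succ]
        refine mul_le_mul ?_ ?_ (Real.log_nonneg ?_) (by positivity)
        · calc ∏ i, Real.log (q.1 i) ≤ ∏ i : Fin s, (L : ℝ) := by
                refine Finset.prod_le_prod (fun i _ => Real.log_nonneg ?_) fun i _ => ?_
                · exact_mod_cast (hI.hp i).1.one_le
                · refine log_le (hI.hp i).1 (hI.hp i).2.2.1 ?_
                  have h2 := hB.sum
                  have h3 := Finset.single_le_sum (f := a) (fun i _ => Nat.zero_le _) (mem_univ i)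
                  omega
            _ = (L : ℝ) ^ s := by simp
        · refine log_le hI.hp'.1 hI.hp'.2.2.1 ?_
          have h2 := hB.sum
          omega
        · exact_mod_cast hI.hp'.1.one_le
    _ = (L : ℝ) ^ (s + 1) * (Tup a e r' m).card := by
        rw [sum_const, nsmul_eq_mul, mul_comm]

/-- the exponents -/
lemma box_of_mem {K : ℕ} (hs : s ≤ K) (hb : 1 ≤ b) (hL : (K + 5) ^ 2 * b ≤ L)
    (ha : ∀ i : Fin s, a i ∈ Ico ((4 + (i : ℕ)) * b) ((5 + (i : ℕ)) * b)) (hk : k < b) :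
    Box b s L k a (L - (s + 1) - (k + 1) - ∑ i, a i) := by
  have h1 : ∑ i, a i ≤ s * ((5 + s) * b) := by
    calc ∑ i, a i ≤ ∑ i : Fin s, (5 + s) * b := by
          refine Finset.sum_le_sum fun i _ => ?_
          have := (mem_Ico.1 (ha i)).2
          have h2 : (5 + (i : ℕ)) * b ≤ (5 + s) * b := Nat.mul_le_mul_right _ (by omega)
          omega
      _ = s * ((5 + s) * b) := by simp
  have h2 : s * ((5 + s) * b) + (4 + s) * b + (s + 1) + (k + 1) ≤ L := by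
    have h3 : s + 1 ≤ (s + 1) * b := Nat.le_mul_of_pos_right _ hb
    have h4 : k + 1 ≤ b := hk
    have h5 : (s + 5) ^ 2 * b ≤ (K + 5) ^ 2 * b :=
      Nat.mul_le_mul_right _ (Nat.pow_le_pow_left (by omega) 2)
    have h6 : s * ((5 + s) * b) + (4 + s) * b + (s + 1) * b + b ≤ (s + 5) ^ 2 * b := by
      nlinarith
    omega
  refine ⟨fun i => (mem_Ico.1 (ha i)).1, fun i => (mem_Ico.1 (ha i)).2, by omega, by omega⟩

lemma exists_class {r m : ℕ} (hr : r < 60) (hr' : r.Coprime 60) (hm : m.Coprime 30) :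
    ∃ r', r' < 60 ∧ r'.Coprime 60 ∧ (m * r') % 60 = r := by
  have hm' : m.Coprime 60 := by
    have h2 : m.Coprime 2 := hm.coprime_dvd_right (by norm_num)
    have : m.Coprime (2 * 30) := h2.mul_right hm
    exact this
  obtain ⟨v, hv, h1⟩ := Nat.exists_mul_mod_eq_of_coprime r hm' (by norm_num)
  rw [Nat.mod_eq_of_lt hr] at h1
  refine ⟨v, hv, ?_, h1⟩
  have h2 : (m * v).Coprime 60 := by
    rw [Nat.Coprime, ← Nat.mod_add_div (m * v) 60, h1]
    simpa using hr'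
  exact h2.coprime_mul_left

lemma final_arith {c X D Lr br Mr S : ℝ} {s K : ℕ} (hsK : s ≤ K) (hb : 0 < br)
    (hM : 1 ≤ Mr) (hL0 : 0 ≤ Lr) (hL : Lr ≤ 2 * Mr * br) (hS : S ≤ D) (hS0 : 0 ≤ S)
    (htot : br ^ s * ((c * br / 8) * (X / (2 ^ (s + 3) * (4 ^ s * 40 ^ (s + 1))))) ≤
      Lr ^ (s + 1) * S) :
    c / 8 / ((2 * Mr) ^ (K + 1) * (2 ^ (K + 3) * 4 ^ K * 40 ^ (K + 1))) * X ≤ D := by
  have h1 : br ^ s * ((c * br / 8) * (X / (2 ^ (s + 3) * (4 ^ s * 40 ^ (s + 1))))) ≤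
      (2 * Mr * br) ^ (s + 1) * D :=
    htot.trans (mul_le_mul (pow_le_pow_left₀ hL0 hL _) hS hS0 (by positivity))
  have h2 : c / 8 * X ≤ (2 * Mr) ^ (s + 1) * (2 ^ (s + 3) * (4 ^ s * 40 ^ (s + 1))) * D := by
    have h3 : br ^ s * ((c * br / 8) * (X / (2 ^ (s + 3) * (4 ^ s * 40 ^ (s + 1))))) =
        br ^ (s + 1) * (c / 8 * X / (2 ^ (s + 3) * (4 ^ s * 40 ^ (s + 1)))) := by
      ring
    rw [h3, mul_pow, mul_comm ((2 * Mr) ^ (s + 1)), mul_assoc] at h1
    have h4 := le_of_mul_le_mul_left h1 (by positivity)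
    rw [div_le_iff₀ (by positivity)] at h4
    linarith
  have hD0 : 0 ≤ D := hS0.trans hS
  have hM1 : (1 : ℝ) ≤ 2 * Mr := by linarith
  have h3 : (2 * Mr) ^ (s + 1) * (2 ^ (s + 3) * (4 ^ s * 40 ^ (s + 1))) * D ≤
      (2 * Mr) ^ (K + 1) * (2 ^ (K + 3) * 4 ^ K * 40 ^ (K + 1)) * D := by
    rw [mul_assoc (2 ^ (K + 3))]
    have e1 : (2 * Mr) ^ (s + 1) ≤ (2 * Mr) ^ (K + 1) := pow_le_pow_right₀ hM1 (by omega)
    have e2 : (2 : ℝ) ^ (s + 3) ≤ 2 ^ (K + 3) := pow_le_pow_right₀ (by norm_num) (by omega)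
    have e3 : (4 : ℝ) ^ s ≤ 4 ^ K := pow_le_pow_right₀ (by norm_num) hsK
    have e4 : (40 : ℝ) ^ (s + 1) ≤ 40 ^ (K + 1) := pow_le_pow_right₀ (by norm_num) (by omega)
    gcongr
  have h4 := h2.trans h3
  rw [div_mul_eq_mul_div, div_le_iff₀ (by positivity)]
  linarith

/-- (M7e) -/
theorem stmtAsm : StmtAsm := by
  intro hRed hExc0 hRank0 hCount0 r hr hr60
  obtain ⟨K, c, hc, hRank⟩ := hRank0
  obtain ⟨N₀, hCount⟩ := hCount0
  have hε : 0 < c / (8 * (K + 60)) := by positivity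
  obtain ⟨N₁, hExc⟩ := hExc0 _ hε
  set ε : ℝ := c / (8 * (K + 60)) with hεdef
  have hM : 0 < (K + 5) ^ 2 := by positivity
  set M : ℕ := (K + 5) ^ 2 with hMdef
  refine ⟨c / 8 / ((2 * M) ^ (K + 1) * (2 ^ (K + 3) * 4 ^ K * 40 ^ (K + 1))), by positivity,
    2 ^ (M * (N₀ + N₁ + 2)), fun X hX => ?_⟩
  have hX0 : X ≠ 0 := by
    have : 0 < 2 ^ (M * (N₀ + N₁ + 2)) := by positivity
    omega
  set L : ℕ := Nat.log 2 X with hL
  have hLb : M * (N₀ + N₁ + 2) ≤ L := Nat.le_log_of_pow_le (by norm_num) hX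
  have hLX : 2 ^ L ≤ X := Nat.pow_log_le_self 2 hX0
  have hXL : X < 2 ^ (L + 1) := Nat.lt_pow_succ_log_self (by norm_num) X
  set b : ℕ := L / M with hb
  have hb1 : N₀ + N₁ + 2 ≤ b := (Nat.le_div_iff_mul_le hM).2 (by rw [mul_comm]; exact hLb)
  have hMb : M * b ≤ L := Nat.mul_div_le L M
  have hLMb : L ≤ 2 * M * b := by
    have h1 : L < M * (b + 1) := by
      have := Nat.lt_mul_div_succ L hM
      exact this
    nlinarith
  have hpow : ∀ x, b ≤ x → N₀ ≤ 2 ^ x ∧ N₁ ≤ 2 ^ x := fun x hx => by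
    have : x < 2 ^ x := Nat.lt_two_pow_self
    omega
  obtain ⟨s, hsK, hs⟩ := hRank (2 ^ b - 1) (by
    have : 2 ^ 2 ≤ 2 ^ b := Nat.pow_le_pow_right (by norm_num) (by omega)
    omega)
  have hs' : c * Real.log ((2 ^ b - 1 : ℕ) : ℝ) ≤ ∑ m ∈ Ms b, frac s m / m := by
    refine hs.trans (le_of_eq ?_)
    rw [Ms]
    refine Finset.sum_congr rfl fun m _ => ?_
    rw [frac, div_div]
  -- residue classes
  have hcl : ∀ m : ℕ, ∃ r', m.Coprime 30 → r' < 60 ∧ r'.Coprime 60 ∧ (m * r') % 60 = r := by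
    intro m
    by_cases hm : m.Coprime 30
    · obtain ⟨r', h⟩ := exists_class hr hr60 hm
      exact ⟨r', fun _ => h⟩
    · exact ⟨0, fun h => absurd h hm⟩
  choose ρ hρ using hcl
  -- boxes
  set A : Finset (Fin s → ℕ) :=
    Fintype.piFinset (fun i : Fin s => Ico ((4 + (i : ℕ)) * b) ((5 + (i : ℕ)) * b)) with hA
  have hAcard : A.card = b ^ s := by
    rw [hA, Fintype.card_piFinset]
    have : ∀ i : Fin s, (Ico ((4 + (i : ℕ)) * b) ((5 + (i : ℕ)) * b)).card = b := by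
      intro i
      rw [Nat.card_Ico, ← Nat.sub_mul]
      have : 5 + (i : ℕ) - (4 + i) = 1 := by omega
      rw [this, one_mul]
    simp [this]
  let E : (Fin s → ℕ) → ℕ → ℕ := fun a k => L - (s + 1) - (k + 1) - ∑ i, a i
  have hbox : ∀ a ∈ A, ∀ k < b, Box b s L k a (E a k) := fun a ha k hk =>
    box_of_mem hsK (by omega) hMb (fun i => Fintype.mem_piFinset.1 ha i) hk
  let G : (Fin s → ℕ) → Finset ℕ := fun a => (Ms b).filter (fun m => (∀ i, ¬ Exc (2 ^ a i) 1 m) ∧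
      ¬ Exc (2 ^ E a (Nat.log 2 m)) (ρ m) m)
  let T : (Fin s → ℕ) → ℕ → Finset ((Fin s → ℕ) × ℕ) :=
    fun a m => Tup a (E a (Nat.log 2 m)) (ρ m) m
  -- the main injection
  have hcard : ∑ a ∈ A, ∑ m ∈ G a, (T a m).card ≤
      ((Icc 1 X).filter (fun d => Squarefree d ∧ d % 60 = r ∧ Vale.Agent.P017.H185.Redei d)).card := by
    have h1 : ∑ a ∈ A, ∑ m ∈ G a, (T a m).card =
        (A.sigma fun a => (G a).sigma fun m => T a m).card := by
      rw [Finset.card_sigma]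
      refine Finset.sum_congr rfl fun a _ => ?_
      rw [Finset.card_sigma]
    rw [h1]
    refine Finset.card_le_card_of_injOn (fun x => x.2.1 * (∏ i, x.2.2.1 i) * x.2.2.2) ?_ ?_
    · rintro ⟨a, m, p, p'⟩ hx
      simp only [Finset.mem_coe, Finset.mem_sigma] at hx
      obtain ⟨ha, hm, hq⟩ := hx
      obtain ⟨hI, hgood⟩ := mem_Tup hq
      obtain ⟨hm0, hmb, hsq, hm30⟩ := mem_Ms.1 (mem_filter.1 hm).1
      have hk := log_lt_of_mem (mem_filter.1 hm).1
      have hB := hbox a ha _ hk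
      obtain ⟨g1, g2, g3, g4, g5, g6⟩ := inBox_good hB hI hm0
        (Nat.lt_pow_succ_log_self (by norm_num) m) hmb hsq
      rw [(hρ m hm30).2.2] at g3
      simp only [Finset.mem_coe, mem_filter, mem_Icc]
      refine ⟨⟨Nat.pos_of_ne_zero g4, g2.trans hLX⟩, g1, g3, ?_⟩
      refine hRed m hsq hm30 s p p' (fun i => ⟨(hI.hp i).1, ?_, g5 i⟩) ?_ hI.hp'.1 ?_ g6 ?_ hgood
      · have h5 : p i % 60 = 1 := (hI.hp i).2.2.2
        omega
      · intro i j hij
        have := (hI.strictMono hB).injective (a₁ := i.castSucc) (a₂ := j.castSucc) (by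
          rw [Fin.snoc_castSucc, Fin.snoc_castSucc]; exact hij)
        exact Fin.castSucc_injective _ this
      · have h5 := hI.hp'.2.1
        have h6 : 2 ^ 1 ≤ 2 ^ E a (Nat.log 2 m) :=
          Nat.pow_le_pow_right (by norm_num) (by have := hB.four_le_e; omega)
        dsimp only at h5
        omega
      · intro i
        exact (hI.p_lt hB i).ne
    · rintro ⟨a₁, m₁, p₁, p₁'⟩ hx₁ ⟨a₂, m₂, p₂, p₂'⟩ hx₂ heq
      simp only [Finset.mem_coe, Finset.mem_sigma] at hx₁ hx₂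
      obtain ⟨ha₁, hm₁, hq₁⟩ := hx₁
      obtain ⟨ha₂, hm₂, hq₂⟩ := hx₂
      obtain ⟨hI₁, -⟩ := mem_Tup hq₁
      obtain ⟨hI₂, -⟩ := mem_Tup hq₂
      have hM₁ := (mem_filter.1 hm₁).1
      have hM₂ := (mem_filter.1 hm₂).1
      obtain ⟨u1, u2, u3, u4⟩ := inBox_unique (hbox a₁ ha₁ _ (log_lt_of_mem hM₁))
        (hbox a₂ ha₂ _ (log_lt_of_mem hM₂)) hI₁ hI₂ (mem_Ms.1 hM₁).1 (mem_Ms.1 hM₁).2.1
        (mem_Ms.1 hM₂).1 (mem_Ms.1 hM₂).2.1 heq
      dsimp only at u2 u3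
      subst u1 u2 u3 u4
      rfl
  -- lower bound for one box
  have hone : ∀ a ∈ A, ∀ m ∈ G a, frac s m / m * (X / (2 ^ (s + 3) * (4 ^ s * 40 ^ (s + 1)))) ≤
      (L : ℝ) ^ (s + 1) * (T a m).card := by
    intro a ha m hm
    have hmG := mem_filter.1 hm
    obtain ⟨hm0, hmb, hsq, hm30⟩ := mem_Ms.1 hmG.1
    have hk := log_lt_of_mem hmG.1
    have hB := hbox a ha _ hk
    have hmle : ∀ x, b ≤ x → m ≤ 2 ^ x := fun x hx =>
      hmb.le.trans (Nat.pow_le_pow_right (by norm_num) hx)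
    have h1 := hCount m s (fun i => 2 ^ a i) (2 ^ E a (Nat.log 2 m)) (ρ m) hsq hm30
      (hρ m hm30).1 (hρ m hm30).2.1
      (fun i => ⟨(hpow _ (by have := hB.four_le i; omega)).1,
        hmle _ (by have := hB.four_le i; omega), hmG.2.1 i⟩)
      (hpow _ (by have := hB.four_le_e; omega)).1 (hmle _ (by have := hB.four_le_e; omega)) hmG.2.2
    refine le_trans ?_ (tup_card hB h1)
    have h2 : (X : ℝ) / (2 ^ (s + 3) * m) ≤
        (∏ i, ((2 ^ a i : ℕ) : ℝ)) * ((2 ^ E a (Nat.log 2 m) : ℕ) : ℝ) := by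
      have h3 : (∏ i, 2 ^ a i) * 2 ^ E a (Nat.log 2 m) * (2 ^ (s + 3) * 2 ^ Nat.log 2 m) =
          2 ^ (L + 1) := by
        rw [Finset.prod_pow_eq_pow_sum, ← pow_add, ← pow_add, ← pow_add]
        congr 1
        have := hB.sum
        omega
      have h4 : 2 ^ Nat.log 2 m ≤ m := Nat.pow_log_le_self 2 hm0
      have h5 : X ≤ (∏ i, 2 ^ a i) * 2 ^ E a (Nat.log 2 m) * (2 ^ (s + 3) * m) :=
        hXL.le.trans (by rw [← h3]; gcongr)
      have hmpos : (0 : ℝ) < m := by exact_mod_cast Nat.pos_of_ne_zero hm0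
      rw [div_le_iff₀ (by positivity)]
      exact_mod_cast h5
    have hmpos : (0 : ℝ) < m := by exact_mod_cast Nat.pos_of_ne_zero hm0
    calc frac s m / m * (X / (2 ^ (s + 3) * (4 ^ s * 40 ^ (s + 1)))) =
          frac s m * (X / (2 ^ (s + 3) * m)) / (4 ^ s * 40 ^ (s + 1)) := by
          field_simp
      _ ≤ _ := by
          have := frac_nonneg s m
          gcongr
  -- summation
  have hsum : ∀ a ∈ A, c * b / 8 ≤ ∑ m ∈ G a, frac s m / m := by
    intro a ha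
    refine good_sum hε.le hc hExc (by omega) hsK ?_ hs' (fun i => ?_) (fun k hk => ?_)
      (fun m hm => ?_)
    · rw [hεdef]
      apply le_of_eq
      field_simp
    · have := (mem_Ico.1 (Fintype.mem_piFinset.1 ha i)).1
      have h2 : 4 * b ≤ (4 + (i : ℕ)) * b := Nat.mul_le_mul_right _ (by omega)
      exact ⟨(hpow _ (by omega)).2, by omega⟩
    · have := (hbox a ha k hk).four_le_e
      exact ⟨(hpow _ (by omega)).2, this⟩
    · have := hρ m (mem_Ms.1 hm).2.2.2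
      exact ⟨this.1, this.2.1⟩
  have hbpos : (0 : ℝ) < b := by
    have : 0 < b := by omega
    exact_mod_cast this
  have htot : (b : ℝ) ^ s * ((c * b / 8) * (X / (2 ^ (s + 3) * (4 ^ s * 40 ^ (s + 1))))) ≤
      (L : ℝ) ^ (s + 1) * ((∑ a ∈ A, ∑ m ∈ G a, (T a m).card : ℕ) : ℝ) := by
    push_cast
    rw [Finset.mul_sum]
    calc (b : ℝ) ^ s * ((c * b / 8) * (X / (2 ^ (s + 3) * (4 ^ s * 40 ^ (s + 1))))) =
          ∑ a ∈ A, (c * b / 8) * (X / (2 ^ (s + 3) * (4 ^ s * 40 ^ (s + 1)))) := by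
          rw [sum_const, hAcard, nsmul_eq_mul]
          push_cast
          ring
      _ ≤ _ := by
          refine Finset.sum_le_sum fun a ha => ?_
          rw [Finset.mul_sum]
          calc _ ≤ (∑ m ∈ G a, frac s m / m) * (X / (2 ^ (s + 3) * (4 ^ s * 40 ^ (s + 1)))) := by
                have := hsum a ha
                gcongr
            _ ≤ _ := by
                rw [Finset.sum_mul]
                exact Finset.sum_le_sum fun m hm => hone a ha m hm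
  have hD1 : ((∑ a ∈ A, ∑ m ∈ G a, (T a m).card : ℕ) : ℝ) ≤
      (((Icc 1 X).filter (fun d => Squarefree d ∧ d % 60 = r ∧
        Vale.Agent.P017.H185.Redei d)).card : ℝ) := Nat.cast_le.2 hcard
  have hLr : (L : ℝ) ≤ 2 * M * b := by exact_mod_cast hLMb
  exact final_arith hsK hbpos (by exact_mod_cast hM) (Nat.cast_nonneg L)
    hLr hD1 (Nat.cast_nonneg _) htot

end Vale.Agent.P017.R2.H222
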