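import Vale.Agent.P017.R2.H985.Defs2

/-!
# P017 (M7e, helper222): combinatorial lemmas of the final assembly
-/

open Finset

namespace Vale.Agent.P017.R2.H222

open Vale.Agent.P017.R2.H985

/-- squarefree products of distinct primes -/
lemma squarefree_prod_primes {ι : Type*} [DecidableEq ι] (S : Finset ι) (P : ι → ℕ)
    (hP : ∀ i ∈ S, (P i).Prime) (hinj : Set.InjOn P S) : Squarefree (∏ i ∈ S, P i) := by
  induction S using Finset.induction_on with
  | empty => simp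
  | insert j S hj ih =>
    rw [Finset.prod_insert hj]
    have hjp := hP j (mem_insert_self _ _)
    refine (Nat.squarefree_mul ?_).2 ⟨hjp.squarefree, ih (fun i hi => hP i (mem_insert_of_mem hi))
      (hinj.mono (by simp))⟩
    refine Nat.Coprime.prod_right fun i hi => ?_
    refine (Nat.coprime_primes hjp (hP i (mem_insert_of_mem hi))).2 fun h => ?_
    have := hinj (by simp) (by simp [hi]) h
    exact hj (this ▸ hi)

/-- uniqueness of `m` and of the large primes -/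
lemma unique_decomp {n B m m' : ℕ} {P P' : Fin n → ℕ} (hm : m ≠ 0) (hmB : m < B) (hm' : m' ≠ 0)
    (hmB' : m' < B) (hP : ∀ i, (P i).Prime ∧ B ≤ P i) (hP' : ∀ i, (P' i).Prime ∧ B ≤ P' i)
    (hs : StrictMono P) (hs' : StrictMono P') (h : m * ∏ i, P i = m' * ∏ i, P' i) :
    m = m' ∧ P = P' := by
  have key : ∀ {m m' : ℕ} {P P' : Fin n → ℕ}, m ≠ 0 → m < B → (∀ i, (P i).Prime ∧ B ≤ P i) →
      (∀ i, (P' i).Prime ∧ B ≤ P' i) → m' ≠ 0 → m' < B → m * ∏ i, P i = m' * ∏ i, P' i →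
      Set.range P ⊆ Set.range P' := by
    intro m m' P P' hm hmB hP hP' hm' hmB' h
    rintro _ ⟨i, rfl⟩
    have h1 : P i ∣ m' * ∏ i, P' i := by
      rw [← h]
      exact (Finset.dvd_prod_of_mem P (mem_univ i)).mul_left m
    rcases (hP i).1.dvd_mul.1 h1 with h2 | h2
    · have := Nat.le_of_dvd (Nat.pos_of_ne_zero hm') h2
      have := (hP i).2
      omega
    · obtain ⟨j, -, hj⟩ := (Prime.dvd_finsetProd_iff (hP i).1.prime P').1 h2
      exact ⟨j, ((Nat.prime_dvd_prime_iff_eq (hP i).1 (hP' j).1).1 hj).symm⟩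
  have hr : P = P' := (hs.range_inj hs').1
    (Set.Subset.antisymm (key hm hmB hP hP' hm' hmB' h) (key hm' hmB' hP' hP hm hmB h.symm))
  refine ⟨?_, hr⟩
  rw [hr] at h
  have h0 : 0 < ∏ i, P' i := Finset.prod_pos fun i _ => (hP' i).1.pos
  exact Nat.eq_of_mul_eq_mul_right h0 h

/-- the exponents of a box -/
structure Box (b s L k : ℕ) (a : Fin s → ℕ) (e : ℕ) : Prop where
  lo : ∀ i : Fin s, (4 + (i : ℕ)) * b ≤ a i
  hi : ∀ i : Fin s, a i < (5 + (i : ℕ)) * b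
  he : (4 + s) * b ≤ e
  sum : (∑ i, a i) + e + (s + 1) + (k + 1) = L

variable {b s L k : ℕ} {a : Fin s → ℕ} {e : ℕ}

lemma Box.lt (hB : Box b s L k a e) {i j : Fin s} (h : i < j) : a i + 1 ≤ a j := by
  have h1 := hB.hi i
  have h2 := hB.lo j
  have h3 : (5 + (i : ℕ)) * b ≤ (4 + (j : ℕ)) * b := by
    apply Nat.mul_le_mul_right
    have : (i : ℕ) < j := h
    omega
  omega

lemma Box.lt_e (hB : Box b s L k a e) (i : Fin s) : a i + 1 ≤ e := by
  have h1 := hB.hi i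
  have h2 := hB.he
  have h3 : (5 + (i : ℕ)) * b ≤ (4 + s) * b := by
    apply Nat.mul_le_mul_right
    have := i.2
    omega
  omega

lemma Box.four_le (hB : Box b s L k a e) (i : Fin s) : 4 * b ≤ a i := by
  have h1 := hB.lo i
  have : 4 * b ≤ (4 + (i : ℕ)) * b := Nat.mul_le_mul_right _ (by omega)
  omega

lemma Box.four_le_e (hB : Box b s L k a e) : 4 * b ≤ e := by
  have h1 := hB.he
  have : 4 * b ≤ (4 + s) * b := Nat.mul_le_mul_right _ (by omega)
  omega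

/-- the primes of a box -/
structure InBox (a : Fin s → ℕ) (e : ℕ) (r' : ℕ) (p : Fin s → ℕ) (p' : ℕ) : Prop where
  hp : ∀ i, (p i).Prime ∧ 2 ^ a i < p i ∧ p i ≤ 2 ^ (a i + 1) ∧ p i % 60 = 1
  hp' : p'.Prime ∧ 2 ^ e < p' ∧ p' ≤ 2 ^ (e + 1) ∧ p' % 60 = r'

variable {r' : ℕ} {p : Fin s → ℕ} {p' : ℕ}

lemma InBox.pp_lt (hI : InBox a e r' p p') (hB : Box b s L k a e) {i j : Fin s} (h : i < j) :
    p i < p j := by
  have h1 := (hI.hp i).2.2.1
  have h2 := (hI.hp j).2.1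
  have h3 := Nat.pow_le_pow_right (n := 2) (by norm_num) (hB.lt h)
  omega

lemma InBox.p_lt (hI : InBox a e r' p p') (hB : Box b s L k a e) (i : Fin s) : p i < p' := by
  have h1 := (hI.hp i).2.2.1
  have h2 := hI.hp'.2.1
  have h3 := Nat.pow_le_pow_right (n := 2) (by norm_num) (hB.lt_e i)
  omega

lemma InBox.strictMono (hI : InBox a e r' p p') (hB : Box b s L k a e) :
    StrictMono (Fin.snoc p p' : Fin (s + 1) → ℕ) := by
  intro i j
  refine Fin.lastCases (fun hij => ?_) (fun j hij => ?_) j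
  · revert hij
    refine Fin.lastCases (fun hij => absurd hij (lt_irrefl _)) (fun i _ => ?_) i
    rw [Fin.snoc_castSucc, Fin.snoc_last]
    exact hI.p_lt hB i
  · revert hij
    refine Fin.lastCases (fun hij => absurd hij (not_lt.2 (Fin.le_last _))) (fun i hij => ?_) i
    rw [Fin.snoc_castSucc, Fin.snoc_castSucc]
    exact hI.pp_lt hB (Fin.castSucc_lt_castSucc_iff.1 hij)

lemma InBox.prime_ge (hI : InBox a e r' p p') (hB : Box b s L k a e) (i : Fin (s + 1)) :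
    ((Fin.snoc p p' : Fin (s + 1) → ℕ) i).Prime ∧
      2 ^ b ≤ (Fin.snoc p p' : Fin (s + 1) → ℕ) i := by
  refine Fin.lastCases ?_ (fun i => ?_) i
  · rw [Fin.snoc_last]
    refine ⟨hI.hp'.1, ?_⟩
    have h1 := hI.hp'.2.1
    have h2 : 2 ^ b ≤ 2 ^ e := Nat.pow_le_pow_right (by norm_num) (by have := hB.four_le_e; omega)
    omega
  · rw [Fin.snoc_castSucc]
    refine ⟨(hI.hp i).1, ?_⟩
    have h1 := (hI.hp i).2.1
    have h2 : 2 ^ b ≤ 2 ^ a i :=
      Nat.pow_le_pow_right (by norm_num) (by have := hB.four_le i; omega)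
    omega

lemma prod_snoc (p : Fin s → ℕ) (p' : ℕ) :
    ∏ i, (Fin.snoc p p' : Fin (s + 1) → ℕ) i = (∏ i, p i) * p' := by
  rw [Fin.prod_univ_castSucc]
  congr 1
  · exact Finset.prod_congr rfl fun i _ => by rw [Fin.snoc_castSucc]
  · rw [Fin.snoc_last]

/-- two boxes, two tuples, the same `d` -/
lemma inBox_unique {k₁ k₂ : ℕ} {a₁ a₂ : Fin s → ℕ} {e₁ e₂ r₁ r₂ : ℕ} {p₁ p₂ : Fin s → ℕ}
    {p₁' p₂' m₁ m₂ : ℕ} (hB₁ : Box b s L k₁ a₁ e₁) (hB₂ : Box b s L k₂ a₂ e₂)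
    (hI₁ : InBox a₁ e₁ r₁ p₁ p₁') (hI₂ : InBox a₂ e₂ r₂ p₂ p₂')
    (hm₁ : m₁ ≠ 0) (hmb₁ : m₁ < 2 ^ b) (hm₂ : m₂ ≠ 0) (hmb₂ : m₂ < 2 ^ b)
    (h : m₁ * (∏ i, p₁ i) * p₁' = m₂ * (∏ i, p₂ i) * p₂') :
    m₁ = m₂ ∧ p₁ = p₂ ∧ p₁' = p₂' ∧ a₁ = a₂ := by
  obtain ⟨h1, h2⟩ := unique_decomp hm₁ hmb₁ hm₂ hmb₂ (hI₁.prime_ge hB₁) (hI₂.prime_ge hB₂)
    (hI₁.strictMono hB₁) (hI₂.strictMono hB₂) (by rw [prod_snoc, prod_snoc, ← mul_assoc,
      ← mul_assoc, h])
  have h3 : p₁ = p₂ := by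
    funext i
    have := congrFun h2 i.castSucc
    rwa [Fin.snoc_castSucc, Fin.snoc_castSucc] at this
  have h4 : p₁' = p₂' := by
    have := congrFun h2 (Fin.last s)
    rwa [Fin.snoc_last, Fin.snoc_last] at this
  refine ⟨h1, h3, h4, ?_⟩
  funext i
  have h5 := hI₁.hp i
  have h6 := hI₂.hp i
  rw [← h3] at h6
  by_contra hne
  rcases Nat.lt_or_gt_of_ne hne with hlt | hlt
  · have := Nat.pow_le_pow_right (n := 2) (by norm_num) (Nat.succ_le_of_lt hlt)
    have h7 := h5.2.2.1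
    have h8 := h6.2.1
    simp only [Nat.succ_eq_add_one] at this
    omega
  · have := Nat.pow_le_pow_right (n := 2) (by norm_num) (Nat.succ_le_of_lt hlt)
    have h7 := h6.2.2.1
    have h8 := h5.2.1
    simp only [Nat.succ_eq_add_one] at this
    omega

/-- the number `d` of a tuple is squarefree, at most `2 ^ L` and in the right class -/
lemma inBox_good {m : ℕ} (hB : Box b s L k a e) (hI : InBox a e r' p p') (hm : m ≠ 0)
    (hmk : m < 2 ^ (k + 1)) (hmb : m < 2 ^ b) (hsq : Squarefree m) :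
    Squarefree (m * (∏ i, p i) * p') ∧ m * (∏ i, p i) * p' ≤ 2 ^ L ∧
      (m * (∏ i, p i) * p') % 60 = (m * r') % 60 ∧ m * (∏ i, p i) * p' ≠ 0 ∧
      (∀ i, ¬ p i ∣ m) ∧ ¬ p' ∣ m := by
  have hnd : ∀ i, ¬ (Fin.snoc p p' : Fin (s + 1) → ℕ) i ∣ m := by
    intro i hi
    have h1 := Nat.le_of_dvd (Nat.pos_of_ne_zero hm) hi
    have h2 := (hI.prime_ge hB i).2
    omega
  have hsq' : Squarefree (m * ∏ i, (Fin.snoc p p' : Fin (s + 1) → ℕ) i) := by
    refine (Nat.squarefree_mul ?_).2 ⟨hsq, squarefree_prod_primes _ _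
      (fun i _ => (hI.prime_ge hB i).1) (hI.strictMono hB).injective.injOn⟩
    refine Nat.Coprime.prod_right fun i _ => ?_
    exact ((Nat.Prime.coprime_iff_not_dvd (hI.prime_ge hB i).1).2 (hnd i)).symm
  rw [prod_snoc, ← mul_assoc] at hsq'
  refine ⟨hsq', ?_, ?_, hsq'.ne_zero, fun i => ?_, ?_⟩
  · have h1 : ∏ i, p i ≤ 2 ^ ((∑ i, a i) + s) := by
      calc ∏ i, p i ≤ ∏ i, 2 ^ (a i + 1) :=
            Finset.prod_le_prod' fun i _ => (hI.hp i).2.2.1
        _ = 2 ^ ((∑ i, a i) + s) := by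
            rw [Finset.prod_pow_eq_pow_sum, Finset.sum_add_distrib]
            simp
    calc m * (∏ i, p i) * p' ≤ 2 ^ (k + 1) * 2 ^ ((∑ i, a i) + s) * 2 ^ (e + 1) :=
          Nat.mul_le_mul (Nat.mul_le_mul hmk.le h1) hI.hp'.2.2.1
      _ = 2 ^ L := by
          rw [← pow_add, ← pow_add, ← hB.sum]
          congr 1
          ring
  · have h1 : (∏ i, p i) % 60 = 1 := by
      have : ∀ S : Finset (Fin s), (∏ i ∈ S, p i) % 60 = 1 := by
        intro S
        induction S using Finset.induction_on with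
        | empty => simp
        | insert j S hj ih =>
          rw [Finset.prod_insert hj, Nat.mul_mod, ih, (hI.hp j).2.2.2]
      exact this _
    rw [mul_assoc, Nat.mul_mod, Nat.mul_mod (∏ i, p i), h1, hI.hp'.2.2.2, one_mul]
    simp [Nat.mul_mod]
  · have := hnd i.castSucc
    rwa [Fin.snoc_castSucc] at this
  · have := hnd (Fin.last s)
    rwa [Fin.snoc_last] at this

end Vale.Agent.P017.R2.H222
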