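import Vale.Agent.P017.R2.H222.AsmA

/-!
# P017 (M7e, helper222): exceptional sets and one box
-/

open Finset

namespace Vale.Agent.P017.R2.H222

open Vale.Agent.P017.R2.H985

open Classical

/-- squarefree `m < 2 ^ b` prime to `30` -/
noncomputable def Ms (b : ℕ) : Finset ℕ :=
  (Icc 1 (2 ^ b - 1)).filter (fun m => Squarefree m ∧ m.Coprime 30)

lemma mem_Ms {b m : ℕ} : m ∈ Ms b ↔ m ≠ 0 ∧ m < 2 ^ b ∧ Squarefree m ∧ m.Coprime 30 := by
  have h0 : 0 < 2 ^ b := by positivity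
  simp only [Ms, mem_filter, mem_Icc]
  constructor
  · rintro ⟨⟨h1, h2⟩, h3, h4⟩
    exact ⟨by omega, by omega, h3, h4⟩
  · rintro ⟨h1, h2, h3, h4⟩
    exact ⟨⟨by omega, by omega⟩, h3, h4⟩

lemma log_lt_of_mem {b m : ℕ} (hm : m ∈ Ms b) : Nat.log 2 m < b := by
  obtain ⟨h1, h2, -⟩ := mem_Ms.1 hm
  exact Nat.log_lt_of_lt_pow h1 h2

lemma sum_biUnion_le' {ι : Type*} (S : Finset ι) (t : ι → Finset ℕ) (f : ℕ → ℝ)
    (hf : ∀ m, 0 ≤ f m) : ∑ m ∈ S.biUnion t, f m ≤ ∑ i ∈ S, ∑ m ∈ t i, f m := by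
  induction S using Finset.induction_on with
  | empty => simp
  | insert j S hj ih =>
    rw [Finset.biUnion_insert, Finset.sum_insert hj]
    refine le_trans ?_ (add_le_add_right ih _)
    rw [← Finset.sum_union_inter]
    exact le_add_of_nonneg_right (Finset.sum_nonneg fun m _ => hf m)

/-- the exceptional `m` of all dyadic ranges -/
lemma exc_sum {ε : ℝ} {N₁ : ℕ}
    (hExc : ∀ N : ℕ, N₁ ≤ N → ∀ k : ℕ, 2 ^ (4 * (k + 1)) ≤ N → ∀ r : ℕ, r < 60 → r.Coprime 60 →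
      ∑ m ∈ (Ico (2 ^ k) (2 ^ (k + 1))).filter
        (fun m => Squarefree m ∧ m.Coprime 30 ∧ Exc N r m), 1 / (m : ℝ) ≤ ε)
    {b : ℕ} {N : ℕ → ℕ} (hN : ∀ k < b, N₁ ≤ N k ∧ 2 ^ (4 * (k + 1)) ≤ N k)
    {r : ℕ} (hr : r < 60) (hr' : r.Coprime 60) :
    ∑ m ∈ (Ms b).filter (fun m => Exc (N (Nat.log 2 m)) r m), 1 / (m : ℝ) ≤ b * ε := by
  have hmaps : ∀ m ∈ (Ms b).filter (fun m => Exc (N (Nat.log 2 m)) r m),
      Nat.log 2 m ∈ range b := fun m hm =>
    mem_range.2 (log_lt_of_mem (mem_filter.1 hm).1)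
  rw [← Finset.sum_fiberwise_of_maps_to hmaps]
  calc _ ≤ ∑ k ∈ range b, ε := by
        refine Finset.sum_le_sum fun k hk => ?_
        rw [mem_range] at hk
        refine le_trans ?_ (hExc (N k) (hN k hk).1 k (hN k hk).2 r hr hr')
        refine Finset.sum_le_sum_of_subset_of_nonneg (fun m hm => ?_) (fun m _ _ => by positivity)
        simp only [mem_filter, mem_Ico] at hm ⊢
        obtain ⟨⟨h1, h2⟩, h3⟩ := hm
        obtain ⟨h4, h5, h6, h7⟩ := mem_Ms.1 h1
        subst h3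
        refine ⟨⟨Nat.pow_log_le_self 2 h4, Nat.lt_pow_succ_log_self (by norm_num) m⟩, h6, h7, h2⟩
    _ = b * ε := by rw [sum_const, card_range, nsmul_eq_mul]

/-- proportion of the patterns with corank `s` -/
noncomputable def frac (s m : ℕ) : ℝ :=
  ((univ.filter fun w : Pat m => cork m w = s).card : ℝ) / (Fintype.card (Pat m))

lemma frac_nonneg (s m : ℕ) : 0 ≤ frac s m := by unfold frac; positivity

lemma frac_le_one (s m : ℕ) : frac s m ≤ 1 := by
  unfold frac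
  refine div_le_one_of_le₀ ?_ (by positivity)
  exact_mod_cast card_le_univ _

/-- for one box, most `m` are not exceptional -/
lemma good_sum {ε c : ℝ} (hε : 0 ≤ ε) (hc : 0 < c) {N₁ : ℕ}
    (hExc : ∀ N : ℕ, N₁ ≤ N → ∀ k : ℕ, 2 ^ (4 * (k + 1)) ≤ N → ∀ r : ℕ, r < 60 → r.Coprime 60 →
      ∑ m ∈ (Ico (2 ^ k) (2 ^ (k + 1))).filter
        (fun m => Squarefree m ∧ m.Coprime 30 ∧ Exc N r m), 1 / (m : ℝ) ≤ ε)
    {b s K : ℕ} (hb : 2 ≤ b) (hsK : s ≤ K) (hεc : (K + 60) * ε ≤ c / 8)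
    (hRank : c * Real.log ((2 ^ b - 1 : ℕ) : ℝ) ≤ ∑ m ∈ Ms b, frac s m / m)
    {a : Fin s → ℕ} (ha : ∀ i, N₁ ≤ 2 ^ a i ∧ 4 * b ≤ a i)
    {E : ℕ → ℕ} (hE : ∀ k < b, N₁ ≤ 2 ^ E k ∧ 4 * b ≤ E k)
    {ρ : ℕ → ℕ} (hρ : ∀ m ∈ Ms b, ρ m < 60 ∧ (ρ m).Coprime 60) :
    c * b / 8 ≤ ∑ m ∈ (Ms b).filter (fun m => (∀ i, ¬ Exc (2 ^ a i) 1 m) ∧
      ¬ Exc (2 ^ E (Nat.log 2 m)) (ρ m) m), frac s m / m := by
  have hpow : ∀ k < b, ∀ x, 4 * b ≤ x → 2 ^ (4 * (k + 1)) ≤ 2 ^ x := fun k hk x hx =>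
    Nat.pow_le_pow_right (by norm_num) (by omega)
  -- exceptional sums
  have h1 : ∀ i, ∑ m ∈ (Ms b).filter (fun m => Exc (2 ^ a i) 1 m), 1 / (m : ℝ) ≤ b * ε := by
    intro i
    exact exc_sum hExc (N := fun _ => 2 ^ a i) (fun k hk => ⟨(ha i).1, hpow k hk _ (ha i).2⟩)
      (by norm_num) (by norm_num)
  have h2 : ∀ r < 60, r.Coprime 60 → ∑ m ∈ (Ms b).filter
      (fun m => Exc (2 ^ E (Nat.log 2 m)) r m), 1 / (m : ℝ) ≤ b * ε := by
    intro r hr hr'
    exact exc_sum hExc (N := fun k => 2 ^ E k)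
      (fun k hk => ⟨(hE k hk).1, hpow k hk _ (hE k hk).2⟩) hr hr'
  have hsplit := Finset.sum_filter_add_sum_filter_not (Ms b)
    (fun m => (∀ i, ¬ Exc (2 ^ a i) 1 m) ∧ ¬ Exc (2 ^ E (Nat.log 2 m)) (ρ m) m)
    (fun m => frac s m / m)
  have hbad : ∑ m ∈ (Ms b).filter (fun m => ¬ ((∀ i, ¬ Exc (2 ^ a i) 1 m) ∧
      ¬ Exc (2 ^ E (Nat.log 2 m)) (ρ m) m)), frac s m / m ≤ (s + 60) * (b * ε) := by
    calc _ ≤ ∑ m ∈ (univ.biUnion fun i : Fin s => (Ms b).filter (fun m => Exc (2 ^ a i) 1 m)) ∪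
          ((range 60).filter (fun r => r.Coprime 60)).biUnion
            (fun r => (Ms b).filter (fun m => Exc (2 ^ E (Nat.log 2 m)) r m)), 1 / (m : ℝ) := by
          refine (Finset.sum_le_sum (g := fun m : ℕ => 1 / (m : ℝ)) fun m hm => ?_).trans
            (Finset.sum_le_sum_of_subset_of_nonneg (fun m hm => ?_) (fun m _ _ => by positivity))
          · exact div_le_div_of_nonneg_right (frac_le_one s m) (Nat.cast_nonneg m)
          · rw [mem_filter] at hm
            obtain ⟨hm1, hm2⟩ := hm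
            rw [mem_union, mem_biUnion, mem_biUnion]
            by_cases h : ∀ i, ¬ Exc (2 ^ a i) 1 m
            · right
              have h3 : Exc (2 ^ E (Nat.log 2 m)) (ρ m) m := by
                by_contra h4
                exact hm2 ⟨h, h4⟩
              exact ⟨ρ m, mem_filter.2 ⟨mem_range.2 (hρ m hm1).1, (hρ m hm1).2⟩,
                mem_filter.2 ⟨hm1, h3⟩⟩
            · left
              push Not at h
              obtain ⟨i, hi⟩ := h
              exact ⟨i, mem_univ _, mem_filter.2 ⟨hm1, hi⟩⟩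
      _ ≤ ∑ m ∈ (univ.biUnion fun i : Fin s => (Ms b).filter (fun m => Exc (2 ^ a i) 1 m)),
            1 / (m : ℝ) + ∑ m ∈ ((range 60).filter (fun r => r.Coprime 60)).biUnion
            (fun r => (Ms b).filter (fun m => Exc (2 ^ E (Nat.log 2 m)) r m)), 1 / (m : ℝ) := by
          rw [← Finset.sum_union_inter]
          exact le_add_of_nonneg_right (Finset.sum_nonneg fun m _ => by positivity)
      _ ≤ ∑ i : Fin s, (b * ε) + ∑ r ∈ (range 60).filter (fun r => r.Coprime 60), (b * ε) := by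
          refine add_le_add ?_ ?_
          · refine (sum_biUnion_le' _ _ _ (fun m => by positivity)).trans
              (Finset.sum_le_sum fun i _ => h1 i)
          · refine (sum_biUnion_le' _ _ _ (fun m => by positivity)).trans
              (Finset.sum_le_sum fun r hr => ?_)
            rw [mem_filter, mem_range] at hr
            exact h2 r hr.1 hr.2
      _ ≤ (s + 60) * (b * ε) := by
          rw [sum_const, sum_const, card_univ, Fintype.card_fin, nsmul_eq_mul, nsmul_eq_mul, add_mul]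
          have hbε : (0 : ℝ) ≤ b * ε := by positivity
          refine add_le_add le_rfl (mul_le_mul_of_nonneg_right ?_ hbε)
          calc (((range 60).filter (fun r => r.Coprime 60)).card : ℝ) ≤ ((range 60).card : ℝ) := by
                exact_mod_cast card_filter_le _ _
            _ = 60 := by simp
  have hlog : (b : ℝ) / 4 ≤ Real.log ((2 ^ b - 1 : ℕ) : ℝ) := by
    have h3 : (2 : ℝ) ^ (b - 1) ≤ ((2 ^ b - 1 : ℕ) : ℝ) := by
      have h4 : 2 ^ (b - 1) ≤ 2 ^ b - 1 := by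
        have h5 : 2 ^ b = 2 * 2 ^ (b - 1) := by
          rw [← pow_succ']
          congr 1
          omega
        have h6 : 0 < 2 ^ (b - 1) := by positivity
        omega
      exact_mod_cast h4
    have h4 := Real.log_le_log (by positivity) h3
    rw [Real.log_pow] at h4
    have h5 : (b : ℝ) / 2 ≤ ((b - 1 : ℕ) : ℝ) := by
      rw [Nat.cast_sub (by omega)]
      have : (2 : ℝ) ≤ b := by exact_mod_cast hb
      push_cast
      linarith
    have h6 : (1 : ℝ) / 2 ≤ Real.log 2 := by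
      have := Real.log_two_gt_d9
      linarith
    calc (b : ℝ) / 4 = (b : ℝ) / 2 * (1 / 2) := by ring
      _ ≤ ((b - 1 : ℕ) : ℝ) * Real.log 2 := by gcongr
      _ ≤ _ := h4
  have hb0 : (0 : ℝ) ≤ b := by positivity
  have h7 : (s + 60 : ℝ) * (b * ε) ≤ c * b / 8 := by
    calc (s + 60 : ℝ) * (b * ε) ≤ (K + 60) * (b * ε) := by
          have : (s : ℝ) ≤ K := by exact_mod_cast hsK
          gcongr
      _ = ((K + 60) * ε) * b := by ring
      _ ≤ c / 8 * b := by gcongr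
      _ = c * b / 8 := by ring
  have h8 : c * (b / 4) ≤ ∑ m ∈ Ms b, frac s m / m := (mul_le_mul_of_nonneg_left hlog hc.le).trans
    hRank
  linarith

end Vale.Agent.P017.R2.H222
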